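import Crest.Agent.X212.Rdc90.Defs
import Crest.Agent.X212.Spn45.Aff
import Crest.Agent.X212.Map77.Mono

/-! Row 212, RDEC (helper78): variations, their curvature and their slices. -/

set_option autoImplicit false
set_option linter.unusedSectionVars false
noncomputable section
open scoped Manifold ContDiff Topology InnerProductSpace
open MeasureTheory Set Function Filter

namespace Crest.Agent.X212.Rd78
open An An.Pre Sob92 Nd18 Cyf70 Wz78 Rdc90
open Neck67 (Lb)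
open Map77 (pj ij sum_ij fm_ext)

section gen
variable {E : Type} [NormedAddCommGroup E] [NormedSpace ℝ E] [FiniteDimensional ℝ E]
  [MeasurableSpace E] [BorelSpace E]
  {HM : Type} [TopologicalSpace HM] {I : ModelWithCorners ℝ E HM}
  {M : Type} [TopologicalSpace M] [ChartedSpace HM M] [IsManifold I ∞ M]
  [MeasurableSpace M] {ι : Type} [Fintype ι] {lam : Type} [Fintype lam]
  {N N' N'' : Type} [NormedAddCommGroup N] [NormedSpace ℝ N] [NormedAddCommGroup N']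
  [NormedSpace ℝ N'] [NormedAddCommGroup N''] [NormedSpace ℝ N''] {X : Type}

/-- bounds which are linear in the weight `w` -/
def OL (F : Pre I M ι) (O : X → Set M) (k : ℕ) (w : X → ℝ) (f : X → M → N) : Prop :=
  ∃ C, 0 ≤ C ∧ ∀ i, IsOpen (O i) ∧ 0 ≤ w i ∧ Lb F (O i) k (f i) (C * w i)

namespace OL
variable {F : Pre I M ι} {O : X → Set M} {k j : ℕ} {w w' : X → ℝ} {f f' : X → M → N}
  {g : X → M → N'}

theorem of (h : ∀ i, IsOpen (O i) ∧ 0 ≤ w i ∧ Lb F (O i) k (f i) (w i)) : OL F O k w f :=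
  ⟨1, zero_le_one, by simpa using h⟩

theorem of_le (h : OL F O k w f) (hj : j ≤ k) : OL F O j w f :=
  h.imp fun _ h => ⟨h.1, fun i => ⟨(h.2 i).1, (h.2 i).2.1, (h.2 i).2.2.of_le hj⟩⟩

theorem D (h : OL F O (k + 1) w f) (a : ι) : OL F O k w fun i => F.D a (f i) :=
  h.imp fun _ h => ⟨h.1, fun i => ⟨(h.2 i).1, (h.2 i).2.1, (h.2 i).2.2.D a⟩⟩

theorem wt (h : OL F O k w f) (e : ∀ i, w i ≤ w' i) : OL F O k w' f :=
  h.imp fun _ h => ⟨h.1, fun i => ⟨(h.2 i).1, (h.2 i).2.1.trans (e i),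
    (h.2 i).2.2.mono (mul_le_mul_of_nonneg_left (e i) h.1)⟩⟩

theorem congr (h : OL F O k w f) (e : ∀ i, ∀ x ∈ O i, f' i x = f i x) : OL F O k w f' :=
  h.imp fun _ h => ⟨h.1, fun i => ⟨(h.2 i).1, (h.2 i).2.1, (h.2 i).2.2.congr (h.2 i).1 (e i)⟩⟩

theorem add (h : OL F O k w f) (h' : OL F O k w f') : OL F O k w fun i x => f i x + f' i x := by
  obtain ⟨A, hA, h⟩ := h
  obtain ⟨C, hC, h'⟩ := h'
  exact ⟨A + C, by positivity, fun i => ⟨(h i).1, (h i).2.1,
    add_mul A C _ ▸ Lb.add (h i).1 (h i).2.2 (h' i).2.2⟩⟩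

theorem clm (L : N →L[ℝ] N') (h : OL F O k w f) : OL F O k w fun i x => L (f i x) := by
  obtain ⟨A, hA, h⟩ := h
  exact ⟨‖L‖ * A, by positivity, fun i => ⟨(h i).1, (h i).2.1,
    (mul_assoc ‖L‖ A _).symm ▸ Lb.clm (h i).1 L (h i).2.2⟩⟩

theorem bil (B : N →L[ℝ] N' →L[ℝ] N'') (h : OL F O k w f) (h' : OL F O k w' g) :
    OL F O k (fun i => w i * w' i) fun i x => B (f i x) (g i x) := by
  obtain ⟨A, hA, h⟩ := h
  obtain ⟨C, hC, h'⟩ := h'
  refine ⟨2 ^ k * ‖B‖ * A * C, by positivity, fun i => ?_⟩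
  have := (h i).2.1
  have := (h' i).2.1
  exact ⟨(h i).1, by positivity, (Lb.bil (h i).1 B (by positivity) (by positivity) (h i).2.2
    (h' i).2.2).mono (le_of_eq (by ring))⟩

theorem bilR (B : N →L[ℝ] N' →L[ℝ] N'') (h : OL F O k 1 f) (h' : OL F O k w g) :
    OL F O k w fun i x => B (f i x) (g i x) := (h.bil B h').wt fun i => by simp

theorem neg (h : OL F O k w f) : OL F O k w fun i x => -f i x :=
  h.clm (-ContinuousLinearMap.id ℝ N)

theorem sub (h : OL F O k w f) (h' : OL F O k w f') : OL F O k w fun i x => f i x - f' i x := by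
  simpa only [sub_eq_add_neg] using h.add h'.neg

theorem app {L : X → M → N →L[ℝ] N'} (h : OL F O k 1 L) (h' : OL F O k w f) :
    OL F O k w fun i x => L i x (f i x) := h.bilR (ContinuousLinearMap.id ℝ _) h'

theorem smul {r : X → M → ℝ} (h : OL F O k 1 r) (h' : OL F O k w f) :
    OL F O k w fun i x => r i x • f i x := h.bilR (ContinuousLinearMap.lsmul ℝ ℝ) h'

theorem sum {κ : Type*} [Fintype κ] (h0 : ∀ i, IsOpen (O i) ∧ 0 ≤ w i) {f : κ → X → M → N}
    (h : ∀ a, OL F O k w (f a)) : OL F O k w fun i x => ∑ a, f a i x := by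
  classical
  induction (Finset.univ : Finset κ) using Finset.induction_on with
  | empty => exact ⟨0, le_rfl, fun i => ⟨(h0 i).1, (h0 i).2, by
      simpa using Lb.const (F := F) (k := k) (h0 i).1 (0 : N)⟩⟩
  | insert a s ha ih => simpa only [Finset.sum_insert ha] using (h a).add ih

theorem toLp {α V : Type} [Fintype α] [NormedAddCommGroup V] [InnerProductSpace ℝ V]
    (h0 : ∀ i, IsOpen (O i) ∧ 0 ≤ w i) {f : X → M → Fm α V}
    (h : ∀ s, OL F O k w fun i x => f i x s) : OL F O k w f :=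
  (sum h0 fun s => (h s).clm (ij V s)).congr fun _ _ _ => fm_ext fun s => (sum_ij _ s).symm

theorem nab {F : Fr I M ι} {A : ι → M → N →L[ℝ] N} {a : ι}
    (hA : OL F.toPre O k 1 fun _ => A a) (h : OL F.toPre O (k + 1) w f) :
    OL F.toPre O k w fun i => nab I F.e A a (f i) := (h.D a).add (hA.app (h.of_le k.le_succ))

end OL

variable {m : Md M ι lam} {B : Base M ι lam} {G : Geo I M ι lam} {W : m.Cn} {x : M}

/-- the curvature of a variation -/
theorem Fg_addC (H : m.OK I B) (C : m.IsConn B G W) {α : M → Fm ι m.A} (sα : Sm I α)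
    (h : ∀ x a, α x a ∈ m.gS x) (a b : ι) (x : M) : m.Fg G.F (m.addC W α) x (a, b) =
      m.Fg G.F W x (a, b) + ed I G.F.e G.F.c (m.adW W) (fun k y => α y k) a b x +
        adc (opL (α x a)) (α x b) := by
  have s : ∀ k, SA I (fun y => α y k) x := fun k => SA.comp (sα x) k
  have e : m.addC W α = W + fun a y => opL (α y a) := rfl
  have m1 : ed I G.F.e G.F.c (m.adW W) (fun k y => α y k) a b x ∈ m.gS x :=
    sub_mem (sub_mem (nab_mem_g H C a (s b) fun y => h y b) (nab_mem_g H C b (s a) fun y => h y a))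
      (Submodule.sum_mem _ fun l _ => Submodule.smul_mem _ _ (h x l))
  change m.pg x (hsL (curv I G.F.e G.F.c (m.addC W α) a b x)) = m.pg x (hsL _) + _ + _
  rw [e, curv_addA (fun a => C.cc.sm a x) fun a => SA.clm opL (s a), ← pg_of_mem m1,
    ← pg_of_mem (adc_mem (h x a) (h x b)), map_add, map_add, map_add, map_add, adc_apply]
  congr 3
  simp only [dA, ed, opL_nab _ (s _), map_sub, map_sum, map_smul, hsL_opL]

theorem adm_vr {r : ℕ} {c : Cfg M ι lam r} (A : c.Adm B G) {α : M → Fm ι c.m.A} {φ : M → c.m.V}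
    (sα : Sm I α) (h : ∀ x, c.m.p1 B x (α x) = α x) (sφ : Sm I φ)
    (h' : ∀ x, c.m.pp B x (φ x) = φ x) : (vr c α φ).Adm B G :=
  ⟨A.ok, Spn45.isConn_addC A.ok A.conn sα h, A.sm.add sφ, fun x => by
    change c.m.pp B x (c.Φ x + φ x) = c.Φ x + φ x
    rw [map_add, A.pos, h'], A.z⟩

end gen

variable {E3 : Type} [NormedAddCommGroup E3] [NormedSpace ℝ E3] [FiniteDimensional ℝ E3]
  [MeasurableSpace E3] [BorelSpace E3]
  {H3 : Type} [TopologicalSpace H3] {I3 : ModelWithCorners ℝ E3 H3} [I3.Boundaryless]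
  {Y : Type} [TopologicalSpace Y] [ChartedSpace H3 Y] [IsManifold I3 ∞ Y] [T2Space Y]
  [MeasurableSpace Y] [BorelSpace Y] [SecondCountableTopology Y] [CompactSpace Y]
  {κ : Type} [Fintype κ] {lam : Type} [Fintype lam]
  {N : Type} [NormedAddCommGroup N] [NormedSpace ℝ N]

theorem cb_slc {F : Pre I3 Y κ} {O : Set (Y × ℝ)} {t C : ℝ} (hO : ∀ y, (y, t) ∈ O) :
    ∀ {j : ℕ} {f : Y × ℝ → N}, Sm (IC I3) f → Lb (cylP F) O j f C → F.CB j (fun y => f (y, t)) C
  | 0, _, _, h => CB_zero.2 fun y => h.le (hO y)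
  | _ + 1, f, hf, h => CB_succ.2 ⟨fun y => h.le (hO y), fun a => by
      have := cb_slc hO ((cylP F).sm_D hf (some a)) (h.D (some a))
      simpa only [D_some F hf] using this⟩

theorem lb_fst {F : Pre I3 Y κ} {C : ℝ} :
    ∀ {j : ℕ} {f : Y → N}, Sm I3 f → F.CB j f C → Lb (cylP F) univ j (fun x => f x.1) |C|
  | 0, _, hf, h => fun x _ => ⟨sm_fst hf x, (CB_bound h x.1).trans (le_abs_self C)⟩
  | _ + 1, f, hf, h => ⟨fun x _ => ⟨sm_fst hf x, (CB_bound h x.1).trans (le_abs_self C)⟩,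
      fun a => by
        cases a with
        | none => rw [D_none_fst F hf]; exact (Lb.const isOpen_univ 0).mono (by simp)
        | some a => rw [D_some_fst F hf]; exact lb_fst (F.sm_D hf a) (CB_D h a)⟩

theorem OL.fst {X : Type} {F : Pre I3 Y κ} {O : X → Set (Y × ℝ)} (hO : ∀ i, IsOpen (O i)) (k : ℕ)
    {φ : Y → N} (h : Sm I3 φ) : OL (cylP F) O k 1 fun _ x => φ x.1 := by
  obtain ⟨C, hC⟩ := Bki64.BB.fst (F := F) (l := ⊤) (S := O) (.of_forall hO) k h
  exact ⟨|C|, abs_nonneg C, fun i => ⟨hO i, zero_le_one, by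
    simpa using (eventually_top.1 hC i).2.abs⟩⟩

variable {D : YD I3 Y κ lam} {β : YC Y κ lam} {α : Y × ℝ → Fm (Option κ) β.m.A}
  {Φ : Y × ℝ → β.m.V} {a : κ → Y → β.m.A} {φ : Y → β.m.V}

theorem bh_zero (β : YC Y κ lam) : bh β 0 0 = β := by
  obtain ⟨m, W, Φ, z⟩ := β
  simp only [bh, vr, Cfg.mk.injEq, heq_eq_eq, true_and, and_true, Pi.zero_apply, add_zero]
  funext o y
  cases o <;> simp [Md.addC]

variable (β) in
/-- a one-form on `Y` as an invariant form on the cylinder -/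
def up (a : κ → Y → β.m.A) (x : Y × ℝ) : Fm (Option κ) β.m.A :=
  WithLp.toLp 2 fun o => o.elim 0 fun k => a k x.1

theorem cy_bh : cy (bh β a φ) = zc β (up β a) fun x => φ x.1 := rfl

theorem sl_up (t : ℝ) : sl β (up β a) t = a := rfl

theorem p1_cy {x : Y × ℝ} {v : Fm (Option κ) β.m.A} : (cy β).m.p1 D.B x v = v ↔
    (∀ o, v o ∈ β.m.gS x.1) ∧ ∀ o, ∑ b, cP D.F.P o b x • v b = v o :=
  Spn45.p1_iff (m := (cy β).m)

theorem sv_up (h : Fo D β a) (h' : So D β φ) : Sv D β (up β a) fun x => φ x.1 where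
  sα x := SA.toLp fun o => by
    cases o
    exacts [contMDiffAt_const, sm_fst (h.sm _) x]
  p1 x := p1_cy.2 ⟨fun o => by
    cases o
    exacts [zero_mem _, h.mem _ _], fun o => by
    rw [Fintype.sum_option]
    cases o with
    | none => simp [cP, up]
    | some k => simpa [cP, up] using h.P k x.1⟩
  sΦ := sm_fst h'.sm
  pos := h'.pos

theorem mem_sv (h : Sv D β α Φ) (x : Y × ℝ) (o : Option κ) : α x o ∈ (cy β).m.gS x :=
  (Spn45.p1_iff.1 (h.p1 x)).1 o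

theorem adm_zc (A : D.Adm β) (h : Sv D β α Φ) : (zc β α Φ).Adm D.B D.G :=
  adm_vr A.adm h.sα h.p1 h.sΦ h.pos

theorem adm_bh (A : D.Adm β) (h : Fo D β a) (h' : So D β φ) : D.Adm (bh β a φ) :=
  ⟨adm_zc A (sv_up h h'), fun y => show β.W none y + opL 0 = (0 : En (Fin β.m.N)) by
    rw [A.tmp, map_zero, add_zero]⟩

theorem sm_cp (h : Sv D β α Φ) (o : Option κ) : Sm (IC I3) fun x => α x o := fun x =>
  SA.comp (h.sα x) o

theorem fo_sl (h : Sv D β α Φ) (t : ℝ) : Fo D β (sl β α t) :=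
  ⟨fun k => sm_slice_fst (sm_cp h _) t, fun k y => mem_sv h (y, t) _, fun k y => by
    simpa [Fintype.sum_option, cP, sl] using (p1_cy.1 (h.p1 (y, t))).2 (some k)⟩

variable (β) in
/-- the adjoint connection of `cy β` -/
abbrev AZ : Option κ → Y × ℝ → En (Fin β.m.N × Fin β.m.N) := fun a x => adc (β.W a x.1)

theorem Fg_zc (A : D.Adm β) (hf : Flt D β) (h : Sv D β α Φ) (x : Y × ℝ) (a b : Option κ) :
    (zc β α Φ).m.Fg D.Z (zc β α Φ).W x (a, b) =
      ed (IC I3) D.Z.e D.Z.c (AZ β) (fun k y => α y k) a b x + adc (opL (α x a)) (α x b) := by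
  have := Fg_addC A.adm.ok A.adm.conn h.sα (mem_sv h) a b x
  rw [show (cy β).m.Fg D.G.F (cy β).W x = 0 from hf x] at this
  exact this.trans (congrArg (· + _) (zero_add _))

theorem nab_sl {V : Type} [NormedAddCommGroup V] [NormedSpace ℝ V] {F : Fr I3 Y κ}
    {C : Option κ → Y × ℝ → V →L[ℝ] V} {u : Y × ℝ → V} (hu : Sm (IC I3) u) (k : κ) (y : Y)
    (t : ℝ) : nab (IC I3) (cyl F).e C (some k) u (y, t) =
      nab I3 F.e (fun k y => C (some k) (y, t)) k (fun z => u (z, t)) y :=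
  congrArg (· + _) (D_some F.toPre hu k (y, t))

theorem ed_sl (h : Sv D β α Φ) (y : Y) (t : ℝ) (j k : κ) :
    ed (IC I3) D.Z.e D.Z.c (AZ β) (fun k y => α y k) (some j) (some k) (y, t) =
      ed I3 D.F.e D.F.c (A0 β) (sl β α t) j k y := by
  simp only [ed, nab_sl (sm_cp h _), Fintype.sum_option]
  simp [cyl, cc, sl]
  rfl

theorem Fg_sl (A : D.Adm β) (hf : Flt D β) (h : Sv D β α Φ) (y : Y) (t : ℝ) (j k : κ) :
    (zc β α Φ).m.Fg D.Z (zc β α Φ).W (y, t) (some j, some k) = By D β (sl β α t) j k y := by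
  rw [Fg_zc A hf h, ed_sl h]; rfl

theorem flt_bh (hD : D.OK) (A : D.Adm β) (hf : Flt D β) (φ : Y → β.m.V) (h : Fo D β a)
    (h0 : ∀ j k y, By D β a j k y = 0) : Flt D (bh β a φ) := fun x => by
  have S : Sv D β (up β a) 0 := sv_up h (φ := 0) ⟨contMDiff_const, fun x => map_zero _⟩
  have e : ∀ o, (zc β (up β a) 0).m.Fg D.Z (zc β (up β a) 0).W x (none, o) = 0 := fun o => by
    have s : Sm I3 fun y => up β a (y, 0) o := sm_slice_fst (sm_cp S o) 0
    have e1 : D.Z.D none (fun y => up β a y o) x = 0 := congrFun (D_none_fst D.F.toPre s) x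
    have e2 : D.Z.D o (fun y => up β a y none) x = 0 := congrFun (dv_const 0) x
    rw [Fg_zc A hf S]
    simp only [ed, nab, ← D_def, e1, e2, show up β a x none = 0 from rfl]
    simp [cyl, cc, adc, A.tmp]
    rfl
  refine fm_ext fun ⟨o, o'⟩ => ?_
  cases o with
  | none => exact e o'
  | some j =>
    cases o' with
    | none => exact (Fg_swap hD.G (adm_zc A S).conn (none, some j)).trans (neg_eq_zero.2 (e _))
    | some k => exact (Fg_sl A hf S x.1 x.2 j k).trans (h0 j k x.1)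

theorem sm_W (A : D.Adm β) (o : Option κ) : Sm I3 (β.W o) :=
  sm_slice_fst (fun x => A.adm.conn.cc.sm o x) 0

theorem lb_Fg (A : D.Adm β) (hf : Flt D β) (j : ℕ) : ∃ C, ∀ α Φ, Sv D β α Φ →
    ∀ (O : Set (Y × ℝ)) (ε : ℝ), IsOpen O → ε ≤ 1 → Lb D.Z.toPre O (j + 1) α ε →
      Lb D.Z.toPre O j ((zc β α Φ).m.Fg D.Z (zc β α Φ).W) (C * ε) := by
  let X := {d : ((Y × ℝ → Fm (Option κ) β.m.A) × (Y × ℝ → β.m.V)) × Set (Y × ℝ) × ℝ //
    Sv D β d.1.1 d.1.2 ∧ IsOpen d.2.1 ∧ 0 ≤ d.2.2 ∧ d.2.2 ≤ 1 ∧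
      Lb D.Z.toPre d.2.1 (j + 1) d.1.1 d.2.2}
  have h0 : ∀ d : X, IsOpen d.1.2.1 ∧ 0 ≤ d.1.2.2 := fun d => ⟨d.2.2.1, d.2.2.2.1⟩
  have h1 : ∀ o, OL D.Z.toPre (fun d : X => d.1.2.1) (j + 1) (fun d => d.1.2.2)
      fun d x => d.1.1.1 x o := fun o =>
    (OL.of fun d : X => ⟨d.2.2.1, d.2.2.2.1, d.2.2.2.2.2⟩).clm (pj _ o)
  have h2 : ∀ o, OL D.Z.toPre (fun d : X => d.1.2.1) j 1 fun _ => AZ β o := fun o =>
    OL.fst (fun d => (h0 d).1) j fun y => SA.clm adcL (sm_W A o y)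
  have h3 : ∀ a b l, OL D.Z.toPre (fun d : X => d.1.2.1) j 1 fun _ => D.Z.c a b l := fun a b l =>
    (OL.fst (fun d => (h0 d).1) j (sm_slice_fst (D.Z.c_sm a b l) 0)).congr fun _ x _ => by
      cases a <;> cases b <;> cases l <;> rfl
  have h4 := fun o => (h1 o).of_le j.le_succ
  obtain ⟨C, hC, h⟩ : OL D.Z.toPre (fun d : X => d.1.2.1) j (fun d => d.1.2.2)
      fun d => (zc β d.1.1.1 d.1.1.2).m.Fg D.Z (zc β d.1.1.1 d.1.1.2).W :=
    OL.toLp h0 fun s => (((((h2 s.1).nab (h1 s.2)).sub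
      ((h2 s.2).nab (h1 s.1))).sub
      (OL.sum h0 fun l => (h3 s.1 s.2 l).smul (h4 l))).add
      ((((h4 s.1).wt fun d => d.2.2.2.2.1).clm (adcL ∘L opL)).app (h4 s.2))).congr
      fun d x _ => Fg_zc A hf d.2.1 x s.1 s.2
  refine ⟨C, fun α Φ S O ε hO h1 h2 => ?_⟩
  rcases O.eq_empty_or_nonempty with rfl | ⟨x, hx⟩
  · exact Lb.of_Dw (by simp) (by simp)
  · exact (h ⟨((α, Φ), O, ε), S, hO, (norm_nonneg _).trans (h2.le hx), h1, h2⟩).2.2

variable (I3 Y κ lam) in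
theorem bas : BasStmt I3 Y κ lam := fun _ β hD A =>
  ⟨bh_zero β, fun _ _ => adm_bh A, fun _ _ h => ⟨adm_zc A h, fo_sl h, fun hf => Fg_sl A hf h⟩,
    fun hf _ φ => flt_bh hD A hf φ, lb_Fg A, fun _ _ _ _ _ =>
      ⟨fun _ _ _ hf hO => cb_slc hO hf, fun _ => lb_fst⟩⟩

end Crest.Agent.X212.Rd78
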