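import Crest.Agent.X212.Rd78.Cvp

/-! Row 212, RDEC (helper78): decay of the slice integrals. -/

set_option autoImplicit false
set_option linter.unusedSectionVars false
noncomputable section
open scoped Manifold ContDiff Topology InnerProductSpace
open MeasureTheory Set Function Filter Real

namespace Crest.Agent.X212.Rd78
open An An.Pre Sob92 Nd18 Cyf70 Wz78 Rdc90
open Neck67 (Lb)
open Map77 (pj)

variable {E3 : Type} [NormedAddCommGroup E3] [NormedSpace ℝ E3] [FiniteDimensional ℝ E3]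
  [MeasurableSpace E3] [BorelSpace E3]
  {H3 : Type} [TopologicalSpace H3] {I3 : ModelWithCorners ℝ E3 H3} [I3.Boundaryless]
  {Y : Type} [TopologicalSpace Y] [ChartedSpace H3 Y] [IsManifold I3 ∞ Y] [T2Space Y]
  [MeasurableSpace Y] [BorelSpace Y] [SecondCountableTopology Y] [CompactSpace Y]
  {κ : Type} [Fintype κ] {lam : Type} [Fintype lam]

theorem int_le (F : Fr I3 Y κ) {f : Y → ℝ} {C : ℝ} (h : ∀ y, 0 ≤ f y ∧ f y ≤ C) :
    ∫ y, f y ∂F.μ ≤ C * F.μ.real univ :=
  (le_abs_self _).trans (norm_integral_le_of_norm_le_const (f := f) (.of_forall fun y =>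
    (abs_of_nonneg (h y).1).trans_le (h y).2))

theorem lb_cp {α V : Type} [Fintype α] [NormedAddCommGroup V] [InnerProductSpace ℝ V]
    {F : Pre (IC I3) (Y × ℝ) (Option κ)} {O : Set (Y × ℝ)} (hO : IsOpen O) {k : ℕ}
    {f : Y × ℝ → Fm α V} {ε : ℝ} (hε : 0 ≤ ε) (h : Lb F O k f ε) (o : α) :
    Lb F O k (fun x => f x o) ε :=
  (Lb.clm hO (pj V o) h).mono (mul_le_of_le_one_left hε (ContinuousLinearMap.opNorm_le_bound _
    zero_le_one fun v => by simpa using PiLp.norm_apply_le v o))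

variable (I3 Y κ lam) in
theorem cvx (hB : CvbStmt I3 Y κ lam) : CvxStmt I3 Y κ lam := by
  rintro D β H ⟨c₀, hc, hP⟩ ⟨K, j, η, hη, hL⟩
  obtain ⟨C₁, h₁, hB⟩ := hB D β H
  obtain ⟨C₂, h₂⟩ := lb_Fg H.adm H.flat 0
  have hK : 0 < max K 1 := lt_max_of_lt_right one_pos
  set m := min (min (max K 1)⁻¹ c₀) 2 with hm
  have m0 : 0 < m := by positivity
  set v := D.F.μ.real univ
  have v0 : 0 ≤ v := measureReal_nonneg
  let n : ℝ := Fintype.card κ
  refine ⟨√m, by positivity, min (min η 1) (m / (C₁ + 1)), by positivity, max j 1,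
    (C₁ + 1) * ((n * (n * C₂ ^ 2) + 1) * v), by positivity, ?_⟩
  intro α Φ S J ε p q hJ hs h0 hε hE hα hΦ t ht
  have hO : IsOpen (univ ×ˢ J : Set (Y × ℝ)) := isOpen_univ.prod hJ
  have e1 : ε ≤ 1 := hε.trans ((min_le_left _ _).trans (min_le_right _ _))
  have e2 : C₁ * ε ≤ m := by
    have := (le_div_iff₀ (by positivity)).1 (hε.trans (min_le_right _ _))
    nlinarith
  have a1 := hα.of_le (le_max_right j 1)
  obtain ⟨b1, b2, b3⟩ := hB α Φ S _ rfl
  obtain ⟨p1, p2, p3⟩ := cvp I3 Y κ lam D c₀ H.ok hP _ (adm_zc H.adm S)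
  replace b3 := b3 J ε hJ e1 hE a1 (hΦ.of_le (Nat.zero_le _))
  replace p3 := p3 J hJ hE
  set GB := fun t => ∫ y, ∑ i, ∑ k, ‖By D β (sl β α t) i k y‖ ^ 2 ∂D.F.μ with hGB
  have g1 : ∀ s, 0 ≤ GB s := fun s => by positivity
  have g2 : ∀ s, 0 ≤ GP D (zc β α Φ) s := fun s => integral_nonneg fun y => sq_nonneg _
  have g3 : ∀ s ∈ J, GB s + GP D (zc β α Φ) s ≤ (n * (n * C₂ ^ 2) + 1) * v * ε ^ 2 := fun s hs => by
    have k1 : GB s ≤ n * (n * (C₂ * ε) ^ 2) * v := int_le D.F fun y => ⟨by positivity, by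
      have := (h₂ α Φ S _ ε hO e1 a1).le (x := (y, s)) ⟨trivial, hs⟩
      simp only [n, ← nsmul_eq_mul, ← Finset.card_univ, ← Finset.sum_const]
      refine Finset.sum_le_sum fun i _ => Finset.sum_le_sum fun k _ => ?_
      rw [← Fg_sl H.adm H.flat S]
      exact pow_le_pow_left₀ (norm_nonneg _) ((PiLp.norm_apply_le _ _).trans this) 2⟩
    have k2 : GP D (zc β α Φ) s ≤ ε ^ 2 * v := int_le D.F fun y => ⟨sq_nonneg _, by
      refine pow_le_pow_left₀ (norm_nonneg _) (le_of_eq_of_le ?_ (hΦ.le (x := (y, s))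
        ⟨trivial, hs⟩)) 2
      exact congrArg norm ((congrArg (· + Φ (y, s)) (H.zr y)).trans (zero_add _))⟩
    linarith
  have hpq := ht.1.trans ht.2
  have c := cvx_le (l := √m) (fun s _ => ((b1 s).hasDerivAt.add (p1 s).hasDerivAt))
    (fun s _ => ((b2 s).hasDerivAt.add (p2 s).hasDerivAt)) (fun s hs' => by
      have k1 := (b3 s (hs hs')).2
      have k2 := p3 s (hs hs')
      have k3 : GB s ≤ _ := hL _ (fo_sl S s) fun k => CB_mono (cb_slc
        (fun y => mk_mem_prod (mem_univ y) (hs hs')) (sm_cp S _) (lb_cp hO h0 (hα.of_le (le_max_left j 1)) (some k)))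
        (hε.trans ((min_le_left _ _).trans (min_le_left _ _)))
      set L := ∫ y, ∑ k, ‖Ly D β (sl β α s) k y‖ ^ 2 ∂D.F.μ
      have L0 : 0 ≤ L := by positivity
      have k4 : m * GB s ≤ L := by
        have := mul_le_mul ((min_le_left _ _).trans (min_le_left _ _) : m ≤ (max K 1)⁻¹)
          (k3.trans (mul_le_mul_of_nonneg_right (le_max_left K 1) L0)) (g1 s) (by positivity)
        rwa [inv_mul_cancel_left₀ hK.ne'] at this
      have k5 := mul_le_mul_of_nonneg_right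
        ((min_le_left _ _).trans (min_le_right _ _) : m ≤ c₀) (g2 s)
      have k6 : 0 ≤ NP D (zc β α Φ) s := integral_nonneg fun y => by positivity
      have k7 := mul_le_mul_of_nonneg_right (e2.trans (min_le_right _ _)) k6
      have k8 := mul_le_mul_of_nonneg_right e2 (add_nonneg (g1 s) (g2 s))
      rw [sq_sqrt m0.le]
      simp only [Pi.add_apply]
      linarith) (add_nonneg (g1 p) (g2 p)) (add_nonneg (g1 q) (g2 q)) ht
  simp only [Pi.add_apply] at c
  have k1 := (b3 t (hs ht)).1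
  have k2 := mul_le_mul_of_nonneg_right (g3 p (hs ⟨le_rfl, hpq⟩)) (exp_pos (-√m * (t - p))).le
  have k3 := mul_le_mul_of_nonneg_right (g3 q (hs ⟨hpq, le_rfl⟩)) (exp_pos (-√m * (q - t))).le
  have k4 := mul_le_mul_of_nonneg_left (c.trans (add_le_add k2 k3)) (by positivity : 0 ≤ C₁ + 1)
  linarith [g1 t]

end Crest.Agent.X212.Rd78
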