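import Crest.Agent.X212.Rd78.Bas
import Crest.Agent.X212.Wz78.Fms
import Crest.Agent.X212.Rf65.Yr

/-! Row 212, RDEC (helper78): the Bochner formula for harmonic one-forms. -/

set_option autoImplicit false
set_option linter.unusedSectionVars false
noncomputable section
open scoped Manifold ContDiff Topology InnerProductSpace
open MeasureTheory Function Filter Finset

namespace Crest.Agent.X212.Rd78
open An An.Pre Sob92 Nd18 Cyf70 Wz78 Rdc90
open Map77 (tp tp_apply inner_fm)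
open Rf65 (Ric en)

section gen
variable {E : Type} [NormedAddCommGroup E] [NormedSpace ℝ E] [FiniteDimensional ℝ E]
  [MeasurableSpace E] [BorelSpace E]
  {HM : Type} [TopologicalSpace HM] {I : ModelWithCorners ℝ E HM}
  {M : Type} [TopologicalSpace M] [ChartedSpace HM M] [IsManifold I ∞ M]
  [MeasurableSpace M] {ι : Type} [Fintype ι]
  {V : Type} [NormedAddCommGroup V] [InnerProductSpace ℝ V] [FiniteDimensional ℝ V]
  {F : Fr I M ι} {A : ι → M → V →L[ℝ] V} {θ : ι → M → V}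

theorem tr_ea (r : ι → ℝ) (v : Fm ι V) :
    Op.tr (tp fun b => r b • ContinuousLinearMap.id ℝ V) v = ∑ b, r b • v b :=
  ext_inner_left ℝ fun w => by
    simp only [Ell97.inner_tr, inner_fm, tp_apply, inner_sum, smul_apply,
      ContinuousLinearMap.id_apply, real_inner_smul_left, real_inner_smul_right]

/-- the pointwise Bochner formula for one-forms -/
theorem boch1 (hR : Riem F) (hA : Con I F.P A) (sk : ∀ a x, Skew (A a x)) (hθ : ∀ b, Sm I (θ b))
    (hP : ∀ a x, ∑ b, F.P a b x • θ b x = θ a x) : ∃ f : ι → M → ℝ, (∀ a, Sm I (f a)) ∧ ∀ x,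
      dvg I F.e F.dv f x = ‖∑ a, cov I F.e F.Gam A θ a a x‖ ^ 2
        - ∑ a, ∑ b, ⟪cov I F.e F.Gam A θ a b x, cov I F.e F.Gam A θ b a x⟫_ℝ
        + ∑ a, ∑ b, ⟪θ a x, curv I F.e F.c A a b x (θ b x)⟫_ℝ
        - ∑ b, ∑ l, Ric I F.e F.c F.Gam b l x * ⟪θ b x, θ l x⟫_ℝ := by
  classical
  have L := lc_gam F
  have S := (sy_ea L (frm F) (B := A)).tr sk fun a x => skew_c1 L (frm F) (sk a x)
  have hC := con_c1 L (frm F) (sep F) hA
  set σ : ι → M → Fm ι V →L[ℝ] V := fun a x =>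
    Op.tr (tp fun b => F.P b a x • ContinuousLinearMap.id ℝ V) with hσ
  set u : M → Fm ι V := fun x => WithLp.toLp 2 fun b => θ b x with hu
  have su : Sm I u := fun x => SA.toLp fun b => hθ b x
  have e0 : ∀ a x v, σ a x v = ∑ b, F.P a b x • v b := fun a x v => by
    simp only [hσ, tr_ea, F.P_symm a]
  have e1 : ∀ a x, σ a x (u x) = θ a x := fun a x => (e0 a x _).trans (hP a x)
  have e2 : ∀ a b x, σ b x (nab I F.e (c1 F.P F.Gam A) a u x) = cov I F.e F.Gam A θ a b x :=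
    fun a b x => by
    have := S.nab a b (su x)
    simp only [e1] at this
    exact eq_sub_of_add_eq this.symm
  have e3 : ∀ a b x, σ b x (curv I F.e F.c (c1 F.P F.Gam A) a b x (u x)) =
      curv I F.e F.c A a b x (θ b x) - ∑ t, Rm I F.e F.c F.Gam a b b t x • θ t x := fun a b x => by
    simp only [e0, curv_c1 L (frm F) (hA.sm · x) (θ := u x) (hP · x), smul_sub, sum_sub_distrib,
      ← map_smul, ← map_sum]
    congr 1
    · exact congrArg _ (hP b x)
    · simp only [smul_sum, smul_smul]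
      rw [sum_comm]
      refine sum_congr rfl fun t _ => ?_
      rw [← sum_smul, ← L.Rm_p3 (frm F) a b b t x]
      simp only [F.P_symm b, mul_comm]
      rfl
  have hs : ∀ a b a', Sm I fun y => ⟪σ a y (u y), σ b y (nab I F.e (c1 F.P F.Gam A) a' u y)⟫_ℝ :=
    fun a b a' y => SA.inner ((S.sm a y).app (su y)) ((S.sm b y).app (sm_nab hC.sm a' su y))
  have s1 := fun a y => SA.sum univ fun b _ => hs a b b y
  have s2 := fun a y => SA.sum univ fun b _ => hs b a b y
  refine ⟨_, fun a y => (s1 a y).sub (s2 a y), fun x => ?_⟩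
  have h1 := S.dvg1 L (frm F) (hR.hg L x) hC (sk · x) (su x) (su x)
  have h2 := S.dvg2 L (frm F) (hR.hg L x) hC (sk · x) (su x) (su x)
  have h3 : ∑ a, ∑ b, ⟪σ a x (u x), σ b x (hess I F.e F.Gam (c1 F.P F.Gam A) a b u x)⟫_ℝ -
      ∑ a, ∑ b, ⟪σ b x (u x), σ a x (hess I F.e F.Gam (c1 F.P F.Gam A) a b u x)⟫_ℝ =
      ∑ a, ∑ b, ⟪θ a x, curv I F.e F.c A a b x (θ b x)⟫_ℝ
        - ∑ b, ∑ l, Ric I F.e F.c F.Gam b l x * ⟪θ b x, θ l x⟫_ℝ := by
    rw [sum_comm (f := fun a b => ⟪σ b x (u x), _⟫_ℝ)]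
    simp only [← sum_sub_distrib, ← inner_sub_right, ← map_sub, L.hess_skew (frm F) hC _ _ (su x),
      e1, e3]
    refine sum_congr rfl fun a _ => ?_
    simp only [inner_sub_right, sum_sub_distrib, inner_sum, real_inner_smul_right,
      ← Ric_eq' L (frm F) (sep F), sum_mul]
    rw [sum_comm (f := fun b t => Rm I F.e F.c F.Gam a b b t x * _)]
  simp only [dop, e2, real_inner_self_eq_norm_sq] at h1 h2
  have h4 : ∀ {f g : ι → M → ℝ}, (∀ a, SA I (f a) x) → (∀ a, SA I (g a) x) →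
      dvg I F.e F.dv (fun a y => f a y - g a y) x = dvg I F.e F.dv f x - dvg I F.e F.dv g x :=
    fun hf hg => by
    simp only [dvg, dv_sub' (hf _) (hg _), ← sum_sub_distrib]
    exact sum_congr rfl fun a _ => by ring
  rw [h4 (s1 · x) (s2 · x)]
  simp only [e2]
  linarith

theorem ed_cov {x : M} (hP : ∀ a, ∑ b, F.P a b x • θ b x = θ a x) (a b : ι) :
    ed I F.e F.c A θ a b x = cov I F.e F.Gam A θ a b x - cov I F.e F.Gam A θ b a x := by
  rw [ed, (lc_gam F).cD a b hP, cov, cov]; abel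

theorem dv1_cov (hR : Riem F) {x : M} (hP : ∀ a, ∑ b, F.P a b x • θ b x = θ a x) :
    dv1 I F.e F.dv A θ x = ∑ a, cov I F.e F.Gam A θ a a x := by
  simp only [dv1, cov, sum_add_distrib, sum_sub_distrib,
    (lc_gam F).div_sum (frm F) (hR.hg (lc_gam F) x) hP, sub_neg_eq_add]

/-- harmonic forms have no Bochner energy -/
theorem en_eq (hR : Riem F) (hA : Con I F.P A) (sk : ∀ a x, Skew (A a x)) (hθ : ∀ b, Sm I (θ b))
    (hP : ∀ a x, ∑ b, F.P a b x • θ b x = θ a x) (h1 : ∀ a b x, ed I F.e F.c A θ a b x = 0)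
    (h2 : ∀ x, dv1 I F.e F.dv A θ x = 0) (h3 : ∀ a b x, curv I F.e F.c A a b x (θ b x) = 0) :
    ∃ f : ι → M → ℝ, (∀ a, Sm I (f a)) ∧ ∀ x, en F A θ x = -dvg I F.e F.dv f x := by
  obtain ⟨f, hf, h⟩ := boch1 hR hA sk hθ hP
  refine ⟨f, hf, fun x => ?_⟩
  have e : ∀ a b, cov I F.e F.Gam A θ b a x = cov I F.e F.Gam A θ a b x := fun a b =>
    sub_eq_zero.1 ((ed_cov (hP · x) b a).symm.trans (h1 b a x))
  rw [h, ← dv1_cov hR (hP · x), h2, en, sum_congr rfl fun a _ => sum_congr rfl fun b _ =>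
    (congrArg (⟪cov I F.e F.Gam A θ a b x, ·⟫_ℝ) (e a b)).trans (real_inner_self_eq_norm_sq _)]
  simp [h3]
  ring

end gen

variable {E3 : Type} [NormedAddCommGroup E3] [NormedSpace ℝ E3] [FiniteDimensional ℝ E3]
  [MeasurableSpace E3] [BorelSpace E3]
  {H3 : Type} [TopologicalSpace H3] {I3 : ModelWithCorners ℝ E3 H3} [I3.Boundaryless]
  {Y : Type} [TopologicalSpace Y] [ChartedSpace H3 Y] [IsManifold I3 ∞ Y] [T2Space Y]
  [MeasurableSpace Y] [BorelSpace Y] [SecondCountableTopology Y] [CompactSpace Y]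
  {κ : Type} [Fintype κ] {lam : Type} [Fintype lam]

theorem curv_sl {V : Type} [NormedAddCommGroup V] [NormedSpace ℝ V] {F : Fr I3 Y κ}
    {C : Option κ → Y × ℝ → V →L[ℝ] V} (hC : ∀ a, Sm (IC I3) (C a)) (j k : κ) (y : Y) (t : ℝ) :
    curv (IC I3) (cyl F).e (cyl F).c C (some j) (some k) (y, t) =
      curv I3 F.e F.c (fun k y => C (some k) (y, t)) j k y := by
  have := fun a b => D_some F.toPre (hC (some b)) a (y, t)
  simp only [curv, Fintype.sum_option]
  exact congrArg₂ (· - ·) (congrArg (· + _) (congrArg₂ (· - ·) (this j k) (this k j)))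
    ((congrArg (· + _) (zero_smul _ _)).trans (zero_add _))

variable {D : YD I3 Y κ lam} {β : YC Y κ lam}

theorem riem_Y (hD : D.OK) : Riem D.F := fun k y => by
  simpa [Fintype.sum_option, YD.G, cyl, cc, cP, cd] using riem_of_vol hD.G.vol (some k) (y, 0)

theorem con_A0 (A : D.Adm β) : Con I3 D.F.P (A0 β) :=
  ⟨fun k y => SA.clm adcL (sm_W A _ y), fun k y => by
    have : ∑ b, cP D.F.P (some k) b (y, 0) • AZ β b (y, 0) = AZ β (some k) (y, 0) :=
      (con_adW A.adm.conn).proj (some k) (y, 0)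
    rwa [Fintype.sum_option, show cP D.F.P (some k) none (y, 0) = 0 from rfl, zero_smul, zero_add]
      at this⟩

theorem skew_A0 (A : D.Adm β) (k : κ) (y : Y) : Skew (A0 β k y) :=
  adW_skw A.adm.conn (some k) (y, 0)

theorem curv_A0 (hD : D.OK) (A : D.Adm β) (hf : Flt D β) (j k : κ) (y : Y) {ξ : β.m.A}
    (h : ξ ∈ β.m.gS y) : curv I3 D.F.e D.F.c (A0 β) j k y ξ = 0 := by
  have e := curv_adW_g hD.B hD.G A.adm.ok A.adm.conn (x := (y, 0)) (some j) (some k) h
  rw [show (cy β).m.Fg D.G.F (cy β).W (y, 0) = 0 from hf _] at e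
  refine (congrArg (· ξ) (curv_sl (C := AZ β) (fun a => (con_adW A.adm.conn).sm a) j k y 0)).symm.trans
    (e.trans ?_)
  simp [adc]
  rfl

variable (I3 Y κ lam) in
theorem hc : HcStmt I3 Y κ lam := fun D β H η _ _ _ ν r S h hh j k y => by
  obtain ⟨f, hf, e⟩ := en_eq (riem_Y H.ok) (con_A0 H.adm) (skew_A0 H.adm) hh.sm hh.P hh.ed hh.dv
    fun a b x => curv_A0 H.ok H.adm H.flat a b x (hh.mem b x)
  have := openPos D.F.toPre
  have c := (sm_dvg (F := D.F) hf).continuous.neg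
  have e0 : ∀ x, 0 ≤ -dvg I3 D.F.e D.F.dv f x := fun x =>
    e x ▸ S.en_nonneg (fun b => hh.sm b x) (hh.P · x)
  have e1 := (c.ae_eq_iff_eq D.F.μ continuous_zero).1 ((integral_eq_zero_iff_of_nonneg e0
    (c.integrable_of_hasCompactSupport (.of_compactSpace _))).1 (by
      rw [integral_neg, integral_dvg hf fun _ => .of_compactSpace _, neg_zero]))
  have e2 := (S.of_en (fun b => hh.sm b y) (hh.P · y) ((e y).trans (congrFun e1 y)).le).1
  rw [e2 j, e2 k, adc_apply]
  rcases isEmpty_or_nonempty η with h0 | ⟨⟨i⟩⟩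
  · simp
  · simp [Fintype.sum_subsingleton _ i, smul_smul, mul_comm]

end Crest.Agent.X212.Rd78
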