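import Crest.Agent.X212.Rd78.Bas

/-! Row 212, RDEC (helper78): convexity of the slice integral of the spinor. -/

set_option autoImplicit false
set_option linter.unusedSectionVars false
noncomputable section
open scoped Manifold ContDiff Topology InnerProductSpace
open MeasureTheory Set Function Filter

namespace Crest.Agent.X212.Rd78
open An An.Pre Sob92 Nd18 Cyf70 Wz78 Rdc90

section gen
variable {E : Type} [NormedAddCommGroup E] [NormedSpace ℝ E] [FiniteDimensional ℝ E]
  [MeasurableSpace E] [BorelSpace E]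
  {HM : Type} [TopologicalSpace HM] {I : ModelWithCorners ℝ E HM} [I.Boundaryless]
  {M : Type} [TopologicalSpace M] [ChartedSpace HM M] [IsManifold I ∞ M] [T2Space M]
  [MeasurableSpace M] [BorelSpace M] {ι : Type} [Fintype ι] {lam : Type} [Fintype lam]
  {B : Base M ι lam} {G : Geo I M ι lam} {r : ℕ} {c : Cfg M ι lam r} {x : M}

/-- the Weitzenboeck inequality where the unperturbed equations hold -/
theorem lap0_le (hB : B.OK I) (hG : G.OK B) (A : c.Adm B G)
    (h1 : ∀ᶠ y in 𝓝 x, dir I G.F.e c.m.ρ c.W c.Φ y = 0)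
    (h2 : c.m.p2 B x (c.m.Fg G.F c.W x) = c.m.mu B x (c.Φ x) (c.Φ x)) :
    lap0 I G.F.e G.F.dv (fun y => ‖c.Φ y‖ ^ 2) x ≤
      2 * (√(∑ s, fP B G x s ^ 2) - sc G x / 4) * ‖c.Φ x‖ ^ 2 -
        2 * ∑ a, ‖nab I G.F.e c.W a c.Φ x‖ ^ 2 := by
  have e0 : dir I G.F.e c.m.ρ c.W (dir I G.F.e c.m.ρ c.W c.Φ) x = 0 :=
    Finset.sum_eq_zero fun a _ => by
      rw [nab_congr (v := fun _ => 0) a h1]; simp [nab]
  have e1 := adm_weitz hB hG A x (c.Φ x)
  have e2 := (frm G.F).lap0_inner (g := G.F.dv) (fun a => A.conn.cc.sm a x)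
    (fun a => .of_forall (A.conn.sk a)) (A.sm x) (A.sm x)
  have e3 := neg_le_of_abs_le (abs_rp_le hB A.ok (x := x) (fP B G x) (c.m.J (c.Φ x)) (c.Φ x))
  have e4 : ‖c.m.J (c.Φ x)‖ = ‖c.Φ x‖ := by
    rw [← sq_eq_sq₀ (norm_nonneg _) (norm_nonneg _), ← real_inner_self_eq_norm_sq, A.ok.Jsk,
      ← mul_apply_eq_comp, A.ok.Jsq]
    simp
  rw [e0, inner_zero_left, ← p2_mu hB, ← inner_p2 hB, h2] at e1
  rw [real_inner_comm (lap _ _ _ _ _ _) (c.Φ x)] at e2
  simp only [real_inner_self_eq_norm_sq] at e1 e2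
  rw [e4] at e3
  rw [e2]
  nlinarith [sq_nonneg ‖c.m.mu B x (c.Φ x) (c.Φ x)‖]

end gen

variable {E3 : Type} [NormedAddCommGroup E3] [NormedSpace ℝ E3] [FiniteDimensional ℝ E3]
  [MeasurableSpace E3] [BorelSpace E3]
  {H3 : Type} [TopologicalSpace H3] {I3 : ModelWithCorners ℝ E3 H3} [I3.Boundaryless]
  {Y : Type} [TopologicalSpace Y] [ChartedSpace H3 Y] [IsManifold I3 ∞ Y] [T2Space Y]
  [MeasurableSpace Y] [BorelSpace Y] [SecondCountableTopology Y] [CompactSpace Y]
  {κ : Type} [Fintype κ] {lam : Type} [Fintype lam] (F : Fr I3 Y κ) {g : Y × ℝ → ℝ}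

theorem int_sl (hg : Continuous g) (t : ℝ) : Integrable (fun y => g (y, t)) F.μ :=
  (hg.comp (by fun_prop)).integrable_of_hasCompactSupport (.of_compactSpace _)

/-- the derivative of a slice integral -/
theorem der_sl (hg : Sm (IC I3) g) (t : ℝ) :
    HasDerivAt (fun s => ∫ y, g (y, s) ∂F.μ) (∫ y, (cyl F).D none g (y, t) ∂F.μ) t := by
  have h1 := ((cyl F).sm_D hg none).continuous
  obtain ⟨C, hC⟩ := (isCompact_univ.prod (isCompact_closedBall t 1)).exists_bound_of_continuousOn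
    h1.continuousOn
  exact (hasDerivAt_integral_of_dominated_loc_of_deriv_le (s := Metric.closedBall t 1)
    (F' := fun s y => (cyl F).D none g (y, s)) (bound := fun _ => C)
    (Metric.closedBall_mem_nhds t one_pos) (.of_forall fun s => (int_sl F hg.continuous s).1)
    (int_sl F hg.continuous t) (int_sl F h1 t).1 (.of_forall fun y s hs => hC _ ⟨trivial, hs⟩)
    (continuous_const.integrable_of_hasCompactSupport (.of_compactSpace _))
    (.of_forall fun y s _ => hasDerivAt_slice F.toPre hg y s)).2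

theorem deriv_sl (hg : Sm (IC I3) g) :
    (deriv fun s => ∫ y, g (y, s) ∂F.μ) = fun s => ∫ y, (cyl F).D none g (y, s) ∂F.μ :=
  funext fun t => (der_sl F hg t).deriv

/-- only the time derivative of a divergence survives on a slice -/
theorem int_dvg {f : Option κ → Y × ℝ → ℝ} (hf : ∀ a, Sm (IC I3) (f a)) (t : ℝ) :
    ∫ y, dvg (IC I3) (cyl F).e (cyl F).dv f (y, t) ∂F.μ =
      ∫ y, (cyl F).D none (f none) (y, t) ∂F.μ := by
  have e : ∀ y, dvg (IC I3) (cyl F).e (cyl F).dv f (y, t) = (cyl F).D none (f none) (y, t) +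
      dvg I3 F.e F.dv (fun a z => f (some a) (z, t)) y := fun y => by
    rw [dvg, Fintype.sum_option]
    exact congrArg₂ (· + ·) ((congrArg (_ + ·) (zero_mul _)).trans (add_zero _))
      (Finset.sum_congr rfl fun a _ => congrArg (· + _) (D_some F.toPre (hf _) a (y, t)))
  have s := fun a => sm_slice_fst (hf (some a)) t
  simp only [e]
  rw [integral_add (int_sl F ((cyl F).sm_D (hf _) _).continuous t)
    (integ_dvg s fun _ => .of_compactSpace _), integral_dvg s fun _ => .of_compactSpace _, add_zero]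

theorem deriv2_sl (hg : Sm (IC I3) g) (t : ℝ) : deriv (deriv fun s => ∫ y, g (y, s) ∂F.μ) t =
    ∫ y, -lap0 (IC I3) (cyl F).e (cyl F).dv g (y, t) ∂F.μ := by
  simp only [lap0, neg_neg]
  rw [deriv_sl F hg, deriv_sl F ((cyl F).sm_D hg none)]
  exact (int_dvg F (fun a => (cyl F).sm_D hg a) t).symm

theorem sm_nsq {V : Type} [NormedAddCommGroup V] [InnerProductSpace ℝ V] {u : Y × ℝ → V}
    (hu : Sm (IC I3) u) : Sm (IC I3) fun x => ‖u x‖ ^ 2 := by
  simpa only [real_inner_self_eq_norm_sq] using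
    show Sm (IC I3) fun x => ⟪u x, u x⟫_ℝ from fun x => SA.inner (hu x) (hu x)

variable (I3 Y κ lam) in
theorem cvp : CvpStmt I3 Y κ lam := fun D c₀ hD hP c A => by
  have s := sm_nsq A.sm
  have s' : Continuous fun x => ∑ a, ‖nab (IC I3) D.Z.e c.W a c.Φ x‖ ^ 2 :=
    continuous_finsetSum _ fun a _ => (sm_nsq (sm_nab (fun a => A.conn.cc.sm a) a A.sm)).continuous
  refine ⟨fun t => (der_sl D.F s t).differentiableAt, fun t => ?_, fun J hJ hE t ht => ?_⟩
  · exact (deriv_sl D.F s).symm ▸ (der_sl D.F (D.Z.sm_D s none) t).differentiableAt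
  · have i1 := (int_sl D.F s' t).const_mul 2
    have i2 := (int_sl D.F s.continuous t).const_mul (2 * c₀)
    refine le_of_eq_of_le ?_ ((integral_mono (i1.add i2) (int_sl D.F
      (sm_dvg fun a => D.Z.sm_D s a).continuous.neg.neg t) fun y => ?_).trans_eq
        (deriv2_sl D.F s t).symm)
    · rw [NP, GP, ← integral_const_mul, ← integral_const_mul, ← integral_add i1 i2]; rfl
    · have h1 := lap0_le hD.B hD.G A (x := (y, t)) (eventually_of_mem
        ((isOpen_univ.prod hJ).mem_nhds ⟨trivial, ht⟩) fun z hz => (hE z hz).1)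
        (hE _ ⟨trivial, ht⟩).2
      have h2 := mul_le_mul_of_nonneg_right (hP (y, t)) (sq_nonneg ‖c.Φ (y, t)‖)
      refine le_neg.2 (h1.trans ?_)
      change _ - 2 * ∑ a, ‖nab (IC I3) D.Z.e c.W a c.Φ (y, t)‖ ^ 2 ≤ _
      simp only [Pi.add_apply]
      linarith

end Crest.Agent.X212.Rd78
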